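import Vale.Agent.P297.H521.Param
import Vale.Agent.P297.H288.Z3Pts

/-!
The points of the surface on the lines of the auxiliary threefolds are generic.
-/

set_option linter.unusedSectionVars false
set_option linter.style.haveILetI false
set_option linter.unusedSimpArgs false

open IntermediateField Polynomial

namespace Vale.Agent.P297.H278

open Vale.Agent.P297 Vale.Agent.P297.Gen Vale.Agent.P297.H288 Vale.Agent.P297.H521
open Vale.Agent.P297.H516

section closed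

variable {N : Type} [Field N] [Algebra ℂ N] [IsAlgClosed N] {F : IntermediateField ℂ N}

/-- The powers of an element outside of a closed field are independent over it. -/
theorem quart (hF : ∀ u, IsAlgebraic F u → u ∈ F) {x : N} (hx : x ∉ F) {c0 c1 c2 c3 c4 : N}
    (h0 : c0 ∈ F) (h1 : c1 ∈ F) (h2 : c2 ∈ F) (h3 : c3 ∈ F) (h4 : c4 ∈ F)
    (h : c4 * x ^ 4 + c3 * x ^ 3 + c2 * x ^ 2 + c1 * x + c0 = 0) :
    c0 = 0 ∧ c1 = 0 ∧ c2 = 0 ∧ c3 = 0 ∧ c4 = 0 := by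
  by_contra hne
  apply hx
  apply hF
  refine isAlgebraic_of_coeff
    (p := C c4 * X ^ 4 + C c3 * X ^ 3 + C c2 * X ^ 2 + C c1 * X + C c0) ?_ ?_ ?_
  · intro n
    simp only [coeff_add, coeff_C_mul, coeff_X_pow, coeff_X, coeff_C]
    refine add_mem (add_mem (add_mem (add_mem (mul_mem h4 ?_) (mul_mem h3 ?_)) (mul_mem h2 ?_))
      (mul_mem h1 ?_)) ?_ <;> split_ifs <;>
      first | exact one_mem _ | exact zero_mem _ | assumption
  · intro hp
    apply hne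
    have e : ∀ n, (C c4 * X ^ 4 + C c3 * X ^ 3 + C c2 * X ^ 2 + C c1 * X + C c0 : N[X]).coeff n
        = 0 := by
      intro n
      rw [hp, coeff_zero]
    have e0 := e 0
    have e1 := e 1
    have e2 := e 2
    have e3 := e 3
    have e4 := e 4
    simp only [coeff_add, coeff_C_mul, coeff_X_pow, coeff_X, coeff_C] at e0 e1 e2 e3 e4
    norm_num at e0 e1 e2 e3 e4
    exact ⟨e0, e1, e2, e3, e4⟩
  · simp only [eval_add, eval_mul, eval_C, eval_pow, eval_X]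
    exact h

/-- Two elements outside of a closed field are conjugate over it. -/
theorem exists_conj (hF : ∀ u, IsAlgebraic F u → u ∈ F) {t t' : N} (ht : t ∉ F) (ht' : t' ∉ F) :
    ∃ g : N ≃ₐ[ℂ] N, (∀ x ∈ F, g x = x) ∧ g t = t' := by
  obtain ⟨M, hM, hFM, h1, h2, h3, h4⟩ := exists_hyper' hF ht ht'
  obtain ⟨g, hg⟩ := exists_move M (z := t) (z' := t') (fun h => h1 (hM _ h))
    (fun h => h2 (hM _ h)) h3 h4
  exact ⟨g.restrictScalars ℂ, fun x hx => g.commutes ⟨x, hFM hx⟩, hg⟩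

theorem map_mem (x : ℂ) : algebraMap ℂ N x ∈ F := F.algebraMap_mem x

theorem A0_mem (P : Par) {x : N} (hx : x ∈ F) : A0 P x ∈ F := by
  unfold A0
  exact sub_mem (sub_mem (mul_mem (ofNat_mem F 3) (pow_mem hx 2)) (mul_mem (map_mem _) hx))
    (map_mem _)

theorem B0_mem (P : Par) {x : N} (hx : x ∈ F) : B0 P x ∈ F := by
  unfold B0
  exact sub_mem (sub_mem (pow_mem hx 3) (mul_mem (map_mem _) hx)) (map_mem _)

end closed

section co

variable {N : Type} [Field N] [Algebra ℂ N]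

theorem algebraMap_A0 (P : Par) (c : ℂ) : A0 P (algebraMap ℂ N c) = algebraMap ℂ N (A0 P c) :=
  (map_A0 P (Algebra.ofId ℂ N) c).symm

theorem algebraMap_B0 (P : Par) (c : ℂ) : B0 P (algebraMap ℂ N c) = algebraMap ℂ N (B0 P c) :=
  (map_B0 P (Algebra.ofId ℂ N) c).symm

/-- The two polynomials have no common root in any extension. -/
theorem co_ext {P : Par} (hco : ∀ c : ℂ, A0 P c = 0 → B0 P c ≠ 0) {x : N} (hx : A0 P x = 0) :
    B0 P x ≠ 0 := by
  obtain ⟨s, hs⟩ := IsAlgClosed.exists_pow_nat_eq (P.z 3 ^ 2 + 12 * P.z 1) (n := 2) (by norm_num)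
  have key : ∀ c : ℂ, c = (P.z 3 + s) / 6 ∨ c = (P.z 3 - s) / 6 → A0 P c = 0 := by
    intro c hc
    unfold A0
    simp only [Algebra.algebraMap_self, RingHom.id_apply]
    rcases hc with rfl | rfl
    · linear_combination hs / 12
    · linear_combination hs / 12
  have h6 : (6 : ℂ) ≠ 0 := by norm_num
  haveI : CharZero N := charZero_of_injective_algebraMap (algebraMap ℂ N).injective
  have hx2 : (6 * x - algebraMap ℂ N (P.z 3 + s)) * (6 * x - algebraMap ℂ N (P.z 3 - s)) = 0 := by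
    have h1 := congrArg (algebraMap ℂ N) hs
    unfold A0 at hx
    simp only [map_add, map_sub, map_mul, map_pow, map_ofNat] at h1 ⊢
    linear_combination 12 * hx - h1
  have h2 : ∃ c : ℂ, (c = (P.z 3 + s) / 6 ∨ c = (P.z 3 - s) / 6) ∧ x = algebraMap ℂ N c := by
    rcases mul_eq_zero.1 hx2 with h | h
    · refine ⟨(P.z 3 + s) / 6, Or.inl rfl, ?_⟩
      rw [map_div₀, map_ofNat, eq_div_iff (by norm_num)]
      linear_combination h
    · refine ⟨(P.z 3 - s) / 6, Or.inr rfl, ?_⟩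
      rw [map_div₀, map_ofNat, eq_div_iff (by norm_num)]
      linear_combination h
  obtain ⟨c, hc, rfl⟩ := h2
  rw [algebraMap_B0, Ne, map_eq_zero]
  exact hco c (key c hc)

end co

section roots

variable {N : Type} [Field N] [Algebra ℂ N] [IsAlgClosed N] {F : IntermediateField ℂ N} {P : Par}

/-- The roots of `b0 + δ a0`. -/
structure Rt (P : Par) (δ w0 w1 w2 : N) : Prop where
  s1 : w0 + w1 + w2 = -(3 * δ)
  s2 : w0 * w1 + w1 * w2 + w2 * w0 = -(algebraMap ℂ N (P.t 3) + algebraMap ℂ N (P.z 3) * δ)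
  s3 : w0 * w1 * w2 = algebraMap ℂ N (P.t 1) + algebraMap ℂ N (P.z 1) * δ

theorem Rt.rot {δ w0 w1 w2 : N} (h : Rt P δ w0 w1 w2) : Rt P δ w1 w2 w0 where
  s1 := by rw [← h.s1]; ring
  s2 := by rw [← h.s2]; ring
  s3 := by rw [← h.s3]; ring

theorem Rt.eval {δ w0 w1 w2 : N} (h : Rt P δ w0 w1 w2) (x : N) :
    B0 P x + δ * A0 P x = (x - w0) * (x - w1) * (x - w2) := by
  unfold B0 A0
  linear_combination x ^ 2 * h.s1 - x * h.s2 + h.s3

theorem Rt.root {δ w0 w1 w2 : N} (h : Rt P δ w0 w1 w2) : B0 P w0 + δ * A0 P w0 = 0 := by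
  rw [h.eval, sub_self, zero_mul, zero_mul]

theorem Rt.deriv {δ w0 w1 w2 : N} (h : Rt P δ w0 w1 w2) (x : N) :
    3 * x ^ 2 + 6 * δ * x - (algebraMap ℂ N (P.t 3) + algebraMap ℂ N (P.z 3) * δ) =
      (x - w0) * (x - w1) + (x - w1) * (x - w2) + (x - w2) * (x - w0) := by
  linear_combination 2 * x * h.s1 - h.s2

theorem Rt.A0_ne {δ w0 w1 w2 : N} (h : Rt P δ w0 w1 w2)
    (hco : ∀ c : ℂ, A0 P c = 0 → B0 P c ≠ 0) : A0 P w0 ≠ 0 := by
  intro h1
  have h2 := h.root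
  rw [h1, mul_zero, add_zero] at h2
  exact co_ext hco h1 h2

theorem Rt.notMem {δ w0 w1 w2 : N} (h : Rt P δ w0 w1 w2)
    (hco : ∀ c : ℂ, A0 P c = 0 → B0 P c ≠ 0) (hδ : δ ∉ F) : w0 ∉ F := by
  intro h1
  apply hδ
  have h2 : δ = -B0 P w0 / A0 P w0 := by
    rw [eq_div_iff (h.A0_ne hco)]
    linear_combination h.root
  rw [h2]
  exact div_mem (neg_mem (B0_mem P h1)) (A0_mem P h1)

theorem Rt.ne (hF : ∀ u, IsAlgebraic F u → u ∈ F) {δ w0 w1 w2 : N} (h : Rt P δ w0 w1 w2)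
    (hco : ∀ c : ℂ, A0 P c = 0 → B0 P c ≠ 0) (hδ : δ ∉ F) : w0 ≠ w1 := by
  intro h1
  haveI : CharZero N := charZero_of_injective_algebraMap (algebraMap ℂ N).injective
  have h2 := h.deriv w0
  rw [← h1] at h2
  have h3 : 3 * w0 ^ 2 + 6 * δ * w0 - (algebraMap ℂ N (P.t 3) + algebraMap ℂ N (P.z 3) * δ) = 0 := by
    rw [h2]
    ring
  have h4 := h.root
  have h5 : (3 : N) * w0 ^ 4 + (-2 * algebraMap ℂ N (P.z 3)) * w0 ^ 3 +
      (3 * algebraMap ℂ N (P.t 3) - 3 * algebraMap ℂ N (P.z 1)) * w0 ^ 2 +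
      (6 * algebraMap ℂ N (P.t 1)) * w0 +
      (algebraMap ℂ N (P.t 3) * algebraMap ℂ N (P.z 1) -
        algebraMap ℂ N (P.z 3) * algebraMap ℂ N (P.t 1)) = 0 := by
    unfold B0 A0 at h4
    linear_combination (3 * w0 ^ 2 - algebraMap ℂ N (P.z 3) * w0 - algebraMap ℂ N (P.z 1)) * h3
      - (6 * w0 - algebraMap ℂ N (P.z 3)) * h4
  have h6 := quart hF (h.notMem hco hδ) (F := F)
    (sub_mem (mul_mem (map_mem _) (map_mem _)) (mul_mem (map_mem _) (map_mem _)))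
    (mul_mem (ofNat_mem F 6) (map_mem _))
    (sub_mem (mul_mem (ofNat_mem F 3) (map_mem _)) (mul_mem (ofNat_mem F 3) (map_mem _)))
    (mul_mem (neg_mem (ofNat_mem F 2)) (map_mem _)) (ofNat_mem F 3) h5
  exact absurd h6.2.2.2.2 (by norm_num)

/-- An automorphism over `F(δ)` that moves the first root to the second one. -/
theorem Rt.exists_aut (hF : ∀ u, IsAlgebraic F u → u ∈ F) {δ w0 w1 w2 : N} (h : Rt P δ w0 w1 w2)
    (hco : ∀ c : ℂ, A0 P c = 0 → B0 P c ≠ 0) (hδ : δ ∉ F) :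
    ∃ g : N ≃ₐ[ℂ] N, (∀ x ∈ F, g x = x) ∧ g δ = δ ∧ g w0 = w1 ∧
      ((g w1 = w0 ∧ g w2 = w2) ∨ (g w1 = w2 ∧ g w2 = w0)) := by
  obtain ⟨g, hg, hgw⟩ := exists_conj hF (h.notMem hco hδ) (h.rot.notMem hco hδ)
  have e1 : g δ = δ := by
    have h1 := congrArg g h.root
    rw [map_add, map_mul, map_zero] at h1
    have hb : g (B0 P w0) = B0 P (g w0) := map_B0 P g.toAlgHom w0
    have ha : g (A0 P w0) = A0 P (g w0) := map_A0 P g.toAlgHom w0
    rw [hb, ha, hgw] at h1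
    apply mul_right_cancel₀ (h.rot.A0_ne hco)
    linear_combination h1 - h.rot.root
  have hc : ∀ c : ℂ, g (algebraMap ℂ N c) = algebraMap ℂ N c := fun c => g.commutes c
  have h1 := congrArg g h.s1
  have h2 := congrArg g h.s2
  simp only [map_add, map_neg, map_mul, map_ofNat, e1, hgw, hc] at h1 h2
  have h3 : (g w1 - w0) * (g w1 - w2) = 0 := by
    linear_combination (g w1 + w1) * h1 - h2 - (g w1 + w1) * h.s1 + h.s2
  refine ⟨g, hg, e1, hgw, ?_⟩
  rcases mul_eq_zero.1 h3 with h4 | h4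
  · left
    have h5 : g w1 = w0 := sub_eq_zero.1 h4
    refine ⟨h5, ?_⟩
    rw [h5] at h1
    linear_combination h1 - h.s1
  · right
    have h5 : g w1 = w2 := sub_eq_zero.1 h4
    refine ⟨h5, ?_⟩
    rw [h5] at h1
    linear_combination h1 - h.s1

end roots

section expand

variable {N : Type} [Field N] [Algebra ℂ N] [IsAlgClosed N] {F : IntermediateField ℂ N} (P : Par)

/-- The coefficients of the expansion of `b0 + δ a0` at a point that moves with `δ`. -/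
def G0 (u d : N) : N := B0 P u + d * A0 P u

def E0 (u d : N) : N :=
  3 * u ^ 2 + 6 * d * u - algebraMap ℂ N (P.t 3) - algebraMap ℂ N (P.z 3) * d

def G1 (u d k : N) : N := -(k * E0 P u d) + A0 P u

def G2 (u d k : N) : N := 3 * u * k ^ 2 + 3 * d * k ^ 2 - 6 * u * k + algebraMap ℂ N (P.z 3) * k

def G3 (k : N) : N := k ^ 2 * (3 - k)

def E1 (u d k : N) : N := -(6 * u * k) - 6 * d * k + 6 * u - algebraMap ℂ N (P.z 3)

def E2 (k : N) : N := 3 * k * (k - 2)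

theorem exp_f (u d k h : N) : B0 P (u - k * h) + (d + h) * A0 P (u - k * h) =
    G3 k * h ^ 3 + G2 P u d k * h ^ 2 + G1 P u d k * h + G0 P u d := by
  unfold G0 G1 G2 G3 E0 B0 A0
  ring

theorem exp_f' (u d k h : N) : 3 * (u - k * h) ^ 2 + 6 * (d + h) * (u - k * h) -
    (algebraMap ℂ N (P.t 3) + algebraMap ℂ N (P.z 3) * (d + h)) =
    E2 k * h ^ 2 + E1 P u d k * h + E0 P u d := by
  unfold E0 E1 E2
  ring

variable {P} {u d k : N}

theorem G0_mem (hu : u ∈ F) (hd : d ∈ F) : G0 P u d ∈ F :=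
  add_mem (B0_mem P hu) (mul_mem hd (A0_mem P hu))

theorem E0_mem (hu : u ∈ F) (hd : d ∈ F) : E0 P u d ∈ F :=
  sub_mem (sub_mem (add_mem (mul_mem (ofNat_mem F 3) (pow_mem hu 2))
    (mul_mem (mul_mem (ofNat_mem F 6) hd) hu)) (map_mem _)) (mul_mem (map_mem _) hd)

theorem G1_mem (hu : u ∈ F) (hd : d ∈ F) (hk : k ∈ F) : G1 P u d k ∈ F :=
  add_mem (neg_mem (mul_mem hk (E0_mem hu hd))) (A0_mem P hu)

theorem G2_mem (hu : u ∈ F) (hd : d ∈ F) (hk : k ∈ F) : G2 P u d k ∈ F :=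
  add_mem (sub_mem (add_mem (mul_mem (mul_mem (ofNat_mem F 3) hu) (pow_mem hk 2))
    (mul_mem (mul_mem (ofNat_mem F 3) hd) (pow_mem hk 2))) (mul_mem (mul_mem (ofNat_mem F 6) hu) hk))
    (mul_mem (map_mem _) hk)

theorem G3_mem (hk : k ∈ F) : G3 k ∈ F :=
  mul_mem (pow_mem hk 2) (sub_mem (ofNat_mem F 3) hk)

theorem E1_mem (hu : u ∈ F) (hd : d ∈ F) (hk : k ∈ F) : E1 P u d k ∈ F :=
  sub_mem (add_mem (sub_mem (neg_mem (mul_mem (mul_mem (ofNat_mem F 6) hu) hk))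
    (mul_mem (mul_mem (ofNat_mem F 6) hd) hk)) (mul_mem (ofNat_mem F 6) hu)) (map_mem _)

theorem E2_mem (hk : k ∈ F) : E2 k ∈ F :=
  mul_mem (mul_mem (ofNat_mem F 3) hk) (sub_mem hk (ofNat_mem F 2))

theorem f_ne (hF : ∀ u, IsAlgebraic F u → u ∈ F) (hu : u ∈ F) (hd : d ∈ F) (hk : k ∈ F)
    (hk0 : k ≠ 0) (hk3 : k ≠ 3) {h : N} (hh : h ∉ F) :
    B0 P (u - k * h) + (d + h) * A0 P (u - k * h) ≠ 0 := by
  intro h0
  rw [exp_f] at h0
  have h1 := quart hF hh (G0_mem hu hd) (G1_mem (P := P) hu hd hk) (G2_mem (P := P) hu hd hk)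
    (G3_mem hk) (zero_mem F) (by linear_combination h0)
  have h2 := h1.2.2.2.1
  unfold G3 at h2
  rcases mul_eq_zero.1 h2 with h3 | h3
  · exact hk0 (pow_eq_zero_iff (by norm_num)|>.1 h3)
  · exact hk3 (by linear_combination -h3)

/-- The triple is not equilateral. -/
theorem equi_ne (hF : ∀ u, IsAlgebraic F u → u ∈ F) (hu : u ∈ F) (hd : d ∈ F) (hk : k ∈ F)
    (hk0 : k ≠ 0) {h : N} (hh : h ∉ F)
    (h0 : (3 * (u - k * h) ^ 2 + 6 * (d + h) * (u - k * h) -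
      (algebraMap ℂ N (P.t 3) + algebraMap ℂ N (P.z 3) * (d + h))) ^ 2 =
      9 * (B0 P (u - k * h) + (d + h) * A0 P (u - k * h)) * (u - k * h + (d + h))) : False := by
  haveI : CharZero N := charZero_of_injective_algebraMap (algebraMap ℂ N).injective
  rw [exp_f, exp_f'] at h0
  have m0 := G0_mem (P := P) hu hd
  have m1 := G1_mem (P := P) hu hd hk
  have m2 := G2_mem (P := P) hu hd hk
  have m3 := G3_mem hk
  have e0 := E0_mem (P := P) hu hd
  have e1 := E1_mem (P := P) hu hd hk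
  have e2 := E2_mem hk
  have n9 : (9 : N) ∈ F := ofNat_mem F 9
  have n2 : (2 : N) ∈ F := ofNat_mem F 2
  have l1 : (1 - k) ∈ F := sub_mem (one_mem F) hk
  have l0 : (u + d) ∈ F := add_mem hu hd
  have h1 := quart hF hh
    (c0 := E0 P u d ^ 2 - 9 * (G0 P u d * (u + d)))
    (c1 := 2 * (E0 P u d * E1 P u d k) - 9 * (G0 P u d * (1 - k) + G1 P u d k * (u + d)))
    (c2 := E1 P u d k ^ 2 + 2 * (E0 P u d * E2 k) - 9 * (G1 P u d k * (1 - k) +
      G2 P u d k * (u + d)))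
    (c3 := 2 * (E1 P u d k * E2 k) - 9 * (G2 P u d k * (1 - k) + G3 k * (u + d)))
    (c4 := E2 k ^ 2 - 9 * (G3 k * (1 - k)))
    (sub_mem (pow_mem e0 2) (mul_mem n9 (mul_mem m0 l0)))
    (sub_mem (mul_mem n2 (mul_mem e0 e1)) (mul_mem n9 (add_mem (mul_mem m0 l1) (mul_mem m1 l0))))
    (sub_mem (add_mem (pow_mem e1 2) (mul_mem n2 (mul_mem e0 e2)))
      (mul_mem n9 (add_mem (mul_mem m1 l1) (mul_mem m2 l0))))
    (sub_mem (mul_mem n2 (mul_mem e1 e2)) (mul_mem n9 (add_mem (mul_mem m2 l1) (mul_mem m3 l0))))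
    (sub_mem (pow_mem e2 2) (mul_mem n9 (mul_mem m3 l1)))
    (by linear_combination h0)
  have h2 := h1.2.2.2.2
  have h3 : (9 : N) * k ^ 2 = 0 := by
    rw [← h2]
    unfold E2 G3
    ring
  rcases mul_eq_zero.1 h3 with h4 | h4
  · exact absurd h4 (by norm_num)
  · exact hk0 (pow_eq_zero_iff (by norm_num)|>.1 h4)

/-- The three coordinates are not equal. -/
theorem equal_ne (hF : ∀ u, IsAlgebraic F u → u ∈ F) (hco : ∀ c : ℂ, A0 P c = 0 → B0 P c ≠ 0)
    (hu : u ∈ F) (hd : d ∈ F) (hk : k ∈ F) {h τ v l : N} (hh : h ∉ F) (hτ : τ ∈ F) (hτ0 : τ ≠ 0)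
    (hv : v ∈ F) (hl : l ∈ F)
    (h0 : (B0 P (u - k * h) + (d + h) * A0 P (u - k * h)) * τ = (k * h) ^ 3)
    (h0' : 3 * (u - k * h) ^ 2 + 6 * (d + h) * (u - k * h) -
      (algebraMap ℂ N (P.t 3) + algebraMap ℂ N (P.z 3) * (d + h)) =
      3 * (k * h) * (v - l * h + (d + h) + 1)) : False := by
  rw [exp_f] at h0
  rw [exp_f'] at h0'
  have m0 := G0_mem (P := P) hu hd
  have m1 := G1_mem (P := P) hu hd hk
  have m2 := G2_mem (P := P) hu hd hk
  have m3 := G3_mem hk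
  have e0 := E0_mem (P := P) hu hd
  have e1 := E1_mem (P := P) hu hd hk
  have e2 := E2_mem hk
  have h1 := quart hF hh (c0 := G0 P u d * τ) (c1 := G1 P u d k * τ) (c2 := G2 P u d k * τ)
    (c3 := G3 k * τ - k ^ 3) (c4 := 0) (mul_mem m0 hτ) (mul_mem m1 hτ) (mul_mem m2 hτ)
    (sub_mem (mul_mem m3 hτ) (pow_mem hk 3)) (zero_mem F) (by linear_combination h0)
  have h2 := quart hF hh (c0 := E0 P u d) (c1 := E1 P u d k - 3 * k * (v + d + 1))
    (c2 := E2 k - 3 * k * (1 - l)) (c3 := 0) (c4 := 0) e0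
    (sub_mem e1 (mul_mem (mul_mem (ofNat_mem F 3) hk) (add_mem (add_mem hv hd) (one_mem F))))
    (sub_mem e2 (mul_mem (mul_mem (ofNat_mem F 3) hk) (sub_mem (one_mem F) hl)))
    (zero_mem F) (zero_mem F) (by linear_combination h0')
  have h3 : G0 P u d = 0 := (mul_eq_zero.1 h1.1).resolve_right hτ0
  have h4 : G1 P u d k = 0 := (mul_eq_zero.1 h1.2.1).resolve_right hτ0
  have h5 : E0 P u d = 0 := h2.1
  have h6 : A0 P u = 0 := by
    unfold G1 at h4
    rw [h5] at h4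
    linear_combination h4
  apply co_ext hco h6
  unfold G0 at h3
  rw [h6] at h3
  linear_combination h3

end expand

section core

variable {N : Type} [Field N] [Algebra ℂ N] [IsAlgClosed N] {F : IntermediateField ℂ N} {P : Par}

theorem dich {p0 p1 p2 x0 x1 x2 c : N} (h0 : p0 * x0 + p1 * x1 + p2 * x2 = c)
    (h1 : p0 * x1 + p1 * x2 + p2 * x0 = c) (h2 : p0 * x2 + p1 * x0 + p2 * x1 = c) :
    (p0 = p1 ∧ p1 = p2) ∨ (x0 + x1 + x2) ^ 2 = 3 * (x0 * x1 + x1 * x2 + x2 * x0) := by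
  have e1 : (p0 - p2) * (x0 - x1) + (p1 - p2) * (x1 - x2) = 0 := by
    linear_combination h0 - h1
  have e2 : (p0 - p2) * (x1 - x2) + (p1 - p2) * (x2 - x0) = 0 := by
    linear_combination h1 - h2
  have e3 : (p0 - p2) * ((x0 - x1) * (x2 - x0) - (x1 - x2) ^ 2) = 0 := by
    linear_combination (x2 - x0) * e1 - (x1 - x2) * e2
  have e4 : (p1 - p2) * ((x0 - x1) * (x2 - x0) - (x1 - x2) ^ 2) = 0 := by
    linear_combination (x0 - x1) * e2 - (x1 - x2) * e1
  by_cases hd : (x0 - x1) * (x2 - x0) - (x1 - x2) ^ 2 = 0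
  · right
    linear_combination -hd
  · left
    have h3 := (mul_eq_zero.1 e3).resolve_right hd
    have h4 := (mul_eq_zero.1 e4).resolve_right hd
    exact ⟨by linear_combination h3 - h4, by linear_combination h4⟩

/-- **A point of a line of the auxiliary threefold `T_δ` determines `δ`.** -/
theorem notMem_line (hF : ∀ u, IsAlgebraic F u → u ∈ F) (hco : ∀ c : ℂ, A0 P c = 0 → B0 P c ≠ 0)
    {δ B D a τ w0 w1 w2 n0 n1 n2 : N} (hτ0 : τ ≠ 0) (hτ1 : 1 + τ ≠ 0) (hτ : τ ∈ F)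
    (hs : B + D + 3 * δ ∈ F) (hu : a + D ∈ F) (hv : B + a / τ ∈ F) (hw : Rt P δ w0 w1 w2)
    (h0 : n0 * (D - w0) * a = B0 P D + δ * A0 P D)
    (h1 : n1 * (D - w1) * a = τ * (B2 P B + δ * A2 P B))
    (h2 : n2 * (D - w2) * τ = a ^ 2) (hn : n0 + n1 + n2 = 3 * (B + δ + 1)) : δ ∈ F := by
  haveI : CharZero N := charZero_of_injective_algebraMap (algebraMap ℂ N).injective
  by_contra hδ
  have h30 : (3 : N) ≠ 0 := by norm_num
  have h3F : (3 : N) ∈ F := ofNat_mem F 3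
  obtain ⟨u, v, d, k, l, h, hu, hv, hd, hk, hl, hh, hk0, hk3, ea, eD, eB, eδ⟩ :
      ∃ u v d k l h : N, u ∈ F ∧ v ∈ F ∧ d ∈ F ∧ k ∈ F ∧ l ∈ F ∧ h ∉ F ∧ k ≠ 0 ∧ k ≠ 3 ∧
        a = k * h ∧ D = u - k * h ∧ B = v - l * h ∧ δ = d + h := by
    have hd : ((B + D + 3 * δ) - (a + D) - (B + a / τ)) / 3 ∈ F :=
      div_mem (sub_mem (sub_mem hs hu) hv) h3F
    have h1τ : 1 + τ ∈ F := add_mem (one_mem F) hτ
    have ea : a = 3 * τ / (1 + τ) * (δ - ((B + D + 3 * δ) - (a + D) - (B + a / τ)) / 3) := by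
      field_simp
      ring
    have el : a / τ = 3 / (1 + τ) * (δ - ((B + D + 3 * δ) - (a + D) - (B + a / τ)) / 3) := by
      field_simp
      ring
    refine ⟨a + D, B + a / τ, ((B + D + 3 * δ) - (a + D) - (B + a / τ)) / 3, 3 * τ / (1 + τ),
      3 / (1 + τ), δ - ((B + D + 3 * δ) - (a + D) - (B + a / τ)) / 3, hu, hv, hd,
      div_mem (mul_mem h3F hτ) h1τ, div_mem h3F h1τ, ?_, ?_, ?_, ea, ?_, ?_, by ring⟩
    · intro hh
      apply hδ
      have := add_mem hh hd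
      rwa [sub_add_cancel] at this
    · exact div_ne_zero (mul_ne_zero h30 hτ0) hτ1
    · intro hk
      rw [div_eq_iff hτ1] at hk
      exact h30 (by linear_combination -hk)
    · rw [← ea]
      ring
    · rw [← el]
      ring
  have hf : B0 P D + δ * A0 P D ≠ 0 := by
    rw [eD, eδ]
    exact f_ne hF hu hd hk hk0 hk3 hh
  have hh0 : h ≠ 0 := fun e => hh (e ▸ zero_mem F)
  have ha0 : a ≠ 0 := ea ▸ mul_ne_zero hk0 hh0
  have hfe := hw.eval D
  have hx0 : D - w0 ≠ 0 := fun e => hf (by rw [hfe, e, zero_mul, zero_mul])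
  have hx1 : D - w1 ≠ 0 := fun e => hf (by rw [hfe, e, mul_zero, zero_mul])
  have hx2 : D - w2 ≠ 0 := fun e => hf (by rw [hfe, e, mul_zero])
  obtain ⟨f, hfd⟩ : ∃ f, f = B0 P D + δ * A0 P D := ⟨_, rfl⟩
  obtain ⟨f2, hf2d⟩ : ∃ f2, f2 = B2 P B + δ * A2 P B := ⟨_, rfl⟩
  rw [← hfd] at h0 hf hfe
  rw [← hf2d] at h1
  -- the relation
  have en0 : n0 = f / a * (D - w0)⁻¹ := by
    field_simp
    linear_combination h0
  have en1 : n1 = τ * f2 / a * (D - w1)⁻¹ := by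
    field_simp
    linear_combination h1
  have en2 : n2 = a ^ 2 / τ * (D - w2)⁻¹ := by
    field_simp
    linear_combination h2
  have R : f / a * (D - w0)⁻¹ + τ * f2 / a * (D - w1)⁻¹ + a ^ 2 / τ * (D - w2)⁻¹ =
      3 * (B + δ + 1) := by
    rw [← en0, ← en1, ← en2, hn]
  have Rg : ∀ g : N ≃ₐ[ℂ] N, (∀ x ∈ F, g x = x) → g δ = δ →
      f / a * (D - g w0)⁻¹ + τ * f2 / a * (D - g w1)⁻¹ + a ^ 2 / τ * (D - g w2)⁻¹ =
      3 * (B + δ + 1) := by
    intro g hg hgδ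
    have gh : g h = h := by
      have e := hgδ
      rw [eδ, map_add, hg d hd] at e
      exact add_left_cancel e
    have ga : g a = a := by rw [ea, map_mul, hg k hk, gh]
    have gD : g D = D := by rw [eD, map_sub, map_mul, hg k hk, gh, hg u hu]
    have gB : g B = B := by rw [eB, map_sub, map_mul, hg l hl, gh, hg v hv]
    have gf : g f = f := by
      have b1 : g (B0 P D) = B0 P (g D) := map_B0 P g.toAlgHom D
      have b2 : g (A0 P D) = A0 P (g D) := map_A0 P g.toAlgHom D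
      rw [hfd, map_add, map_mul, b1, b2, gD, hgδ]
    have gf2 : g f2 = f2 := by
      have b1 : g (B2 P B) = B2 P (g B) := map_B2 P g.toAlgHom B
      have b2 : g (A2 P B) = A2 P (g B) := map_A2 P g.toAlgHom B
      rw [hf2d, map_add, map_mul, b1, b2, gB, hgδ]
    have e := congrArg g R
    simp only [map_add, map_mul, map_div₀, map_inv₀, map_sub, map_pow, map_one, map_ofNat,
      ga, gD, gB, gf, gf2, hgδ, hg τ hτ] at e
    exact e
  have hdich : (f / a = τ * f2 / a ∧ τ * f2 / a = a ^ 2 / τ) ∨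
      ((D - w0)⁻¹ + (D - w1)⁻¹ + (D - w2)⁻¹) ^ 2 = 3 * ((D - w0)⁻¹ * (D - w1)⁻¹ +
        (D - w1)⁻¹ * (D - w2)⁻¹ + (D - w2)⁻¹ * (D - w0)⁻¹) := by
    have hcyc : ∀ g : N ≃ₐ[ℂ] N, (∀ x ∈ F, g x = x) → g δ = δ → g w0 = w1 → g w1 = w2 →
        g w2 = w0 → (f / a = τ * f2 / a ∧ τ * f2 / a = a ^ 2 / τ) ∨
      ((D - w0)⁻¹ + (D - w1)⁻¹ + (D - w2)⁻¹) ^ 2 = 3 * ((D - w0)⁻¹ * (D - w1)⁻¹ +
        (D - w1)⁻¹ * (D - w2)⁻¹ + (D - w2)⁻¹ * (D - w0)⁻¹) := fun g hg hgδ g0 g1 g2 => by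
      have r1 := Rg g hg hgδ
      rw [g0, g1, g2] at r1
      have r2 := Rg (g.trans g) (fun x hx => by
        rw [AlgEquiv.trans_apply, hg x hx, hg x hx]) (by rw [AlgEquiv.trans_apply, hgδ, hgδ])
      rw [AlgEquiv.trans_apply, AlgEquiv.trans_apply, AlgEquiv.trans_apply, g0, g1, g2, g0] at r2
      exact dich R r1 r2
    obtain ⟨g, hg, hgδ, g0, ⟨g1, g2⟩ | ⟨g1, g2⟩⟩ := hw.exists_aut hF hco hδ
    · obtain ⟨g', hg', hgδ', g1', ⟨g2', g0'⟩ | ⟨g2', g0'⟩⟩ := hw.rot.exists_aut hF hco hδ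
      · left
        have r1 := Rg g hg hgδ
        rw [g0, g1, g2] at r1
        have r2 := Rg g' hg' hgδ'
        rw [g0', g1', g2'] at r2
        have n01 : (D - w0)⁻¹ - (D - w1)⁻¹ ≠ 0 := by
          intro e
          exact hw.ne hF hco hδ (by linear_combination -(inv_injective (sub_eq_zero.1 e)))
        have n12 : (D - w1)⁻¹ - (D - w2)⁻¹ ≠ 0 := by
          intro e
          exact hw.rot.ne hF hco hδ (by linear_combination -(inv_injective (sub_eq_zero.1 e)))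
        constructor
        · have e : (f / a - τ * f2 / a) * ((D - w0)⁻¹ - (D - w1)⁻¹) = 0 := by
            linear_combination R - r1
          exact sub_eq_zero.1 ((mul_eq_zero.1 e).resolve_right n01)
        · have e : (τ * f2 / a - a ^ 2 / τ) * ((D - w1)⁻¹ - (D - w2)⁻¹) = 0 := by
            linear_combination R - r2
          exact sub_eq_zero.1 ((mul_eq_zero.1 e).resolve_right n12)
      · exact hcyc g' hg' hgδ' g0' g1' g2'
    · exact hcyc g hg hgδ g0 g1 g2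
  have hder := hw.deriv D
  rcases hdich with ⟨e1, e2⟩ | e
  · have e3 : f * τ = a ^ 3 := by
      have e4 : f / a = a ^ 2 / τ := e1.trans e2
      rw [div_eq_div_iff ha0 hτ0] at e4
      linear_combination e4
    have e5 : 3 * D ^ 2 + 6 * δ * D -
        (algebraMap ℂ N (P.t 3) + algebraMap ℂ N (P.z 3) * δ) = 3 * a * (B + δ + 1) := by
      rw [hder]
      have e6 := R
      rw [← e2, ← e1] at e6
      have e7 : f / a * ((D - w0)⁻¹ + (D - w1)⁻¹ + (D - w2)⁻¹) = 3 * (B + δ + 1) := by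
        rw [← e6]
        ring
      have e8 : f * ((D - w0)⁻¹ + (D - w1)⁻¹ + (D - w2)⁻¹) =
          (D - w0) * (D - w1) + (D - w1) * (D - w2) + (D - w2) * (D - w0) := by
        rw [hfe]
        field_simp
        ring
      rw [← e8]
      have e9 : f * ((D - w0)⁻¹ + (D - w1)⁻¹ + (D - w2)⁻¹) =
          a * (f / a * ((D - w0)⁻¹ + (D - w1)⁻¹ + (D - w2)⁻¹)) := by
        field_simp
      rw [e9, e7]
      ring
    refine equal_ne hF hco hu hd hk (τ := τ) (v := v) (l := l) hh hτ hτ0 hv hl ?_ ?_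
    · rw [← eD, ← eδ, ← hfd, ← ea]
      exact e3
    · rw [← eD, ← eδ, ← ea, ← eB, e5]
  · refine equi_ne (P := P) hF hu hd hk hk0 hh ?_
    rw [← eD, ← eδ, ← hfd, hder]
    have e8 : f * ((D - w0)⁻¹ + (D - w1)⁻¹ + (D - w2)⁻¹) =
        (D - w0) * (D - w1) + (D - w1) * (D - w2) + (D - w2) * (D - w0) := by
      rw [hfe]
      field_simp
      ring
    have e9 : f * ((D - w0)⁻¹ * (D - w1)⁻¹ + (D - w1)⁻¹ * (D - w2)⁻¹ + (D - w2)⁻¹ * (D - w0)⁻¹) =
        3 * (D + δ) := by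
      rw [hfe]
      field_simp
      linear_combination -hw.s1
    rw [← e8, mul_pow, e]
    linear_combination 3 * f * e9

end core

end Vale.Agent.P297.H278
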