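import Vale.Agent.P297.H278.Gen6
import Vale.Agent.P297.H721.PtMore

/-!
The points of the surface on the lines `L(w, n)` of the auxiliary threefold `T_δ` are generic.
-/

set_option linter.unusedSectionVars false
set_option linter.style.haveILetI false
set_option linter.unusedSimpArgs false

open IntermediateField Polynomial

namespace Vale.Agent.P297.H278

open Vale.Agent.P297 Vale.Agent.P297.Gen Vale.Agent.P297.H288 Vale.Agent.P297.H521
open Vale.Agent.P297.H516 Vale.Agent.P297.H777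

section conics

variable {N : Type} [Field N] [Algebra ℂ N] [IsAlgClosed N] {F : IntermediateField ℂ N}

/-- A common point of two conics. -/
theorem two_conics (hF : ∀ u, IsAlgebraic F u → u ∈ F) {p q c3 c4 c0 u v : N} (hp : p ∈ F)
    (hq : q ∈ F) (h3 : c3 ∈ F) (h4 : c4 ∈ F) (h0 : c0 ∈ F)
    (e1 : u ^ 2 + u * v + v ^ 2 + p * (u + v) + q = 0)
    (e2 : u ^ 2 - v ^ 2 + c4 * u - c3 * v + c0 = 0) : u ∈ F ∧ v ∈ F := by
  haveI : CharZero N := charZero_of_injective_algebraMap (algebraMap ℂ N).injective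
  have n2 : (2 : N) ∈ F := ofNat_mem F 2
  have hu : u ∈ F := by
    by_contra hu
    have e3 : v * (u + (p - c3)) = -(2 * u ^ 2 + (p + c4) * u + (q + c0)) := by
      linear_combination e1 + e2
    have e4 : u ^ 2 * (u + (p - c3)) ^ 2 - u * (u + (p - c3)) * (2 * u ^ 2 + (p + c4) * u + (q + c0))
        + (2 * u ^ 2 + (p + c4) * u + (q + c0)) ^ 2 + p * (u * (u + (p - c3)) ^ 2 -
          (2 * u ^ 2 + (p + c4) * u + (q + c0)) * (u + (p - c3))) + q * (u + (p - c3)) ^ 2 = 0 := by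
      have e5 : (u + (p - c3)) ^ 2 * (u ^ 2 + u * v + v ^ 2 + p * (u + v) + q) = 0 := by
        rw [e1, mul_zero]
      linear_combination e5 - (u * (u + (p - c3)) + p * (u + (p - c3)) + v * (u + (p - c3)) -
        (2 * u ^ 2 + (p + c4) * u + (q + c0))) * e3
    have hk : p - c3 ∈ F := sub_mem hp h3
    have hl : p + c4 ∈ F := add_mem hp h4
    have hm : q + c0 ∈ F := add_mem hq h0
    obtain ⟨k, hkd⟩ : ∃ k, k = p - c3 := ⟨_, rfl⟩
    obtain ⟨l, hld⟩ : ∃ l, l = p + c4 := ⟨_, rfl⟩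
    obtain ⟨m, hmd⟩ : ∃ m, m = q + c0 := ⟨_, rfl⟩
    rw [← hkd] at hk e4
    rw [← hld] at hl e4
    rw [← hmd] at hm e4
    have h := quart hF hu (c4 := 3) (c3 := 3 * l - p) 
      (c2 := k ^ 2 - l * k - m + l ^ 2 + 4 * m + p * (2 * k - l - 2 * k) + q)
      (c1 := -(k * m) + 2 * l * m + p * (k ^ 2 - m - l * k) + 2 * q * k)
      (c0 := m ^ 2 - p * (m * k) + q * k ^ 2)
      (add_mem (sub_mem (pow_mem hm 2) (mul_mem hp (mul_mem hm hk))) (mul_mem hq (pow_mem hk 2)))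
      (add_mem (add_mem (add_mem (neg_mem (mul_mem hk hm)) (mul_mem (mul_mem n2 hl) hm))
        (mul_mem hp (sub_mem (sub_mem (pow_mem hk 2) hm) (mul_mem hl hk))))
        (mul_mem (mul_mem n2 hq) hk))
      (add_mem (add_mem (add_mem (add_mem (sub_mem (sub_mem (pow_mem hk 2) (mul_mem hl hk)) hm)
        (pow_mem hl 2)) (mul_mem (ofNat_mem F 4) hm))
        (mul_mem hp (sub_mem (sub_mem (mul_mem n2 hk) hl) (mul_mem n2 hk)))) hq)
      (sub_mem (mul_mem (ofNat_mem F 3) hl) hp) (ofNat_mem F 3) (by linear_combination e4)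
    exact absurd h.2.2.2.2 (by norm_num)
  refine ⟨hu, ?_⟩
  by_contra hv
  have h := quart hF hv (c4 := 0) (c3 := 0) (c2 := 1) (c1 := u + p) (c0 := u ^ 2 + p * u + q)
    (add_mem (add_mem (pow_mem hu 2) (mul_mem hp hu)) hq) (add_mem hu hp) (one_mem F) (zero_mem F)
    (zero_mem F) (by linear_combination e1)
  exact absurd h.2.2.1 one_ne_zero

end conics

section line

variable {N : Type} [Field N] [Algebra ℂ N] [IsAlgClosed N] {P : Par}

theorem Rt.mem {F : IntermediateField ℂ N} (hF : ∀ u, IsAlgebraic F u → u ∈ F) {δ w0 w1 w2 : N}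
    (h : Rt P δ w0 w1 w2) (hδ : δ ∈ F) : w0 ∈ F := by
  by_contra hw
  have h1 := quart hF hw (c4 := 0) (c3 := 1) (c2 := 3 * δ)
    (c1 := -(algebraMap ℂ N (P.t 3) + algebraMap ℂ N (P.z 3) * δ))
    (c0 := -(algebraMap ℂ N (P.t 1) + algebraMap ℂ N (P.z 1) * δ))
    (neg_mem (add_mem (map_mem _) (mul_mem (map_mem _) hδ)))
    (neg_mem (add_mem (map_mem _) (mul_mem (map_mem _) hδ)))
    (mul_mem (ofNat_mem F 3) hδ) (one_mem F) (zero_mem F) (by
      have h2 := h.root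
      unfold B0 A0 at h2
      linear_combination h2)
  exact one_ne_zero h1.2.2.2.1

/-- The constant of the bilinear form. -/
def Mc (P : Par) (δ : N) : N := 9 * δ ^ 2 + 9 * δ + (algebraMap ℂ N (P.t 2) +
  algebraMap ℂ N (P.z 2) * δ) + (algebraMap ℂ N (P.t 3) + algebraMap ℂ N (P.z 3) * δ)

/-- There is no point with `τ = -1` on the lines. -/
theorem line_ne {δ B D w0 w1 w2 n0 n1 n2 a : N} (hB : B ∉ cl0 ({δ} : Set N))
    (hw : Rt P δ w0 w1 w2) (h1 : n0 + n1 + n2 = 3 * (B + δ + 1))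
    (h2 : w0 * n0 + w1 * n1 + w2 * n2 = -(3 * (δ + 1) * B + Mc P δ))
    (ha : n0 * a = (D - w1) * (D - w2)) (hb : n1 * (D - w1) * a = -(B2 P B + δ * A2 P B))
    (hc : n2 * (D - w2) = -a ^ 2)
    (hQ : qQ (B + D + 3 * δ) (a + D) (B - a) = 0) : False := by
  haveI : CharZero N := charZero_of_injective_algebraMap (algebraMap ℂ N).injective
  have hF := cl0_closed ({δ} : Set N)
  have hδ : δ ∈ cl0 ({δ} : Set N) := subset_cl0 _ (Set.mem_singleton δ)
  obtain ⟨u, hu⟩ : ∃ u, u = a + D := ⟨_, rfl⟩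
  obtain ⟨v, hv⟩ : ∃ v, v = B - a := ⟨_, rfl⟩
  have eD : D = u - a := by rw [hu]; ring
  have eB : B = v + a := by rw [hv]; ring
  have hf := hw.eval D
  have hw0 := hw.mem hF hδ
  have hw1 := hw.rot.mem hF hδ
  have hw2 := hw.rot.rot.mem hF hδ
  have n2 : (2 : N) ∈ cl0 ({δ} : Set N) := ofNat_mem _ 2
  have n3 : (3 : N) ∈ cl0 ({δ} : Set N) := ofNat_mem _ 3
  have hr1 : algebraMap ℂ N (P.t 0) + algebraMap ℂ N (P.z 0) * δ ∈ cl0 ({δ} : Set N) :=
    add_mem (map_mem _) (mul_mem (map_mem _) hδ)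
  have hr2 : algebraMap ℂ N (P.t 1) + algebraMap ℂ N (P.z 1) * δ ∈ cl0 ({δ} : Set N) :=
    add_mem (map_mem _) (mul_mem (map_mem _) hδ)
  have hr3 : algebraMap ℂ N (P.t 2) + algebraMap ℂ N (P.z 2) * δ ∈ cl0 ({δ} : Set N) :=
    add_mem (map_mem _) (mul_mem (map_mem _) hδ)
  have hr4 : algebraMap ℂ N (P.t 3) + algebraMap ℂ N (P.z 3) * δ ∈ cl0 ({δ} : Set N) :=
    add_mem (map_mem _) (mul_mem (map_mem _) hδ)
  have hd : 3 * δ ^ 2 + 3 * δ ∈ cl0 ({δ} : Set N) :=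
    add_mem (mul_mem n3 (pow_mem hδ 2)) (mul_mem n3 hδ)
  -- the member of the pencil
  have hT : B0 P D + δ * A0 P D - (B2 P B + δ * A2 P B) - a ^ 3 =
      a * (3 * B * D + 3 * (δ + 1) * (B + D) + Mc P δ) := by
    linear_combination hf - (D - w0) * ha - hb - a * hc + a * D * h1 - a * h2
  -- the two conics
  have c1 : u ^ 2 + u * v + v ^ 2 + (3 * δ + 1) * (u + v) + (3 * δ ^ 2 + 3 * δ) = 0 := by
    have h3 : (3 : N) * (u ^ 2 + u * v + v ^ 2 + (3 * δ + 1) * (u + v) +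
        (3 * δ ^ 2 + 3 * δ)) = 0 := by
      rw [← hQ, eB, eD]
      unfold qQ
      ring
    exact (mul_eq_zero.1 h3).resolve_left (by norm_num)
  have c2 : u ^ 2 - v ^ 2 + ((algebraMap ℂ N (P.t 3) + algebraMap ℂ N (P.z 3) * δ) +
      (3 * δ ^ 2 + 3 * δ)) * u - ((algebraMap ℂ N (P.t 2) + algebraMap ℂ N (P.z 2) * δ) +
      (3 * δ ^ 2 + 3 * δ)) * v + ((algebraMap ℂ N (P.t 1) + algebraMap ℂ N (P.z 1) * δ) -
      (algebraMap ℂ N (P.t 0) + algebraMap ℂ N (P.z 0) * δ)) = 0 := by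
    rw [eB, eD] at hT
    unfold B0 A0 B2 A2 Mc at hT
    linear_combination (u - v - 3 * a) * c1 - hT
  obtain ⟨hu', hv'⟩ := two_conics hF (add_mem (mul_mem n3 hδ) (one_mem _)) hd (add_mem hr3 hd)
    (add_mem hr4 hd) (sub_mem hr2 hr1) c1 c2
  -- the cubic equation for `a`
  by_cases haF : a ∈ cl0 ({δ} : Set N)
  · apply hB
    rw [eB]
    exact add_mem hv' haF
  have key : (D - w1) ^ 2 * (D - w2) ^ 2 - (B2 P B + δ * A2 P B) * (D - w2) - a ^ 3 * (D - w1) -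
      3 * (B + δ + 1) * (a * ((D - w1) * (D - w2))) = 0 := by
    linear_combination (-((D - w1) * (D - w2))) * ha - (D - w2) * hb
      - a * (D - w1) * hc + a * ((D - w1) * (D - w2)) * h1
  obtain ⟨x1, hx1⟩ : ∃ x, x = u - w1 := ⟨_, rfl⟩
  obtain ⟨x2, hx2⟩ : ∃ x, x = u - w2 := ⟨_, rfl⟩
  obtain ⟨q0, hq0⟩ : ∃ x, x = B2 P v + δ * A2 P v := ⟨_, rfl⟩
  obtain ⟨q1, hq1⟩ : ∃ x, x = 3 * v ^ 2 + 6 * δ * v -
    (algebraMap ℂ N (P.t 2) + algebraMap ℂ N (P.z 2) * δ) := ⟨_, rfl⟩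
  have mx1 : x1 ∈ cl0 ({δ} : Set N) := hx1 ▸ sub_mem hu' hw1
  have mx2 : x2 ∈ cl0 ({δ} : Set N) := hx2 ▸ sub_mem hu' hw2
  have mq0 : q0 ∈ cl0 ({δ} : Set N) :=
    hq0 ▸ add_mem (H288.B2_mem _ P hv') (mul_mem hδ (H288.A2_mem _ P hv'))
  have mq1 : q1 ∈ cl0 ({δ} : Set N) :=
    hq1 ▸ sub_mem (add_mem (mul_mem n3 (pow_mem hv' 2))
      (mul_mem (mul_mem (ofNat_mem _ 6) hδ) hv')) hr3
  have mm : v + δ + 1 ∈ cl0 ({δ} : Set N) := add_mem (add_mem hv' hδ) (one_mem _)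
  have mq2 : 3 * v + 3 * δ ∈ cl0 ({δ} : Set N) := add_mem (mul_mem n3 hv') (mul_mem n3 hδ)
  have mσ := add_mem mx1 mx2
  have mπ := mul_mem mx1 mx2
  have e2 : B2 P (v + a) + δ * A2 P (v + a) = q0 + q1 * a + (3 * v + 3 * δ) * a ^ 2 + a ^ 3 := by
    rw [hq0, hq1]
    unfold B2 A2
    ring
  rw [eB, eD, e2, show u - a - w1 = x1 - a by rw [hx1]; ring,
    show u - a - w2 = x2 - a by rw [hx2]; ring] at key
  have h := quart hF haF (c4 := 0) (c3 := -3)
    (c2 := (x1 + x2) ^ 2 + 2 * (x1 * x2) + q1 - x2 * (3 * v + 3 * δ) - 3 * (x1 * x2) +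
      3 * ((v + δ + 1) * (x1 + x2)))
    (c1 := -(2 * ((x1 + x2) * (x1 * x2))) + q0 - x2 * q1 - 3 * ((v + δ + 1) * (x1 * x2)))
    (c0 := (x1 * x2) ^ 2 - x2 * q0)
    (sub_mem (pow_mem mπ 2) (mul_mem mx2 mq0))
    (sub_mem (sub_mem (add_mem (neg_mem (mul_mem n2 (mul_mem mσ mπ))) mq0) (mul_mem mx2 mq1))
      (mul_mem n3 (mul_mem mm mπ)))
    (add_mem (sub_mem (sub_mem (add_mem (add_mem (pow_mem mσ 2) (mul_mem n2 mπ)) mq1)
      (mul_mem mx2 mq2)) (mul_mem n3 mπ)) (mul_mem n3 (mul_mem mm mσ)))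
    (neg_mem n3) (zero_mem _) (by linear_combination key)
  have h3 := h.2.2.2.1
  norm_num at h3

/-- The relations of a point of a line. -/
theorem line_rel {δ B D w0 w1 w2 n0 n1 n2 : N} (hw : Rt P δ w0 w1 w2)
    (h3 : n0 * n1 * n2 = B2 P B + δ * A2 P B) (hn0 : n0 ≠ 0) (hn2 : n2 ≠ 0) :
    n0 * (D - w0) * ((D - w1) * (D - w2) / n0) = B0 P D + δ * A0 P D ∧
    n1 * (D - w1) * ((D - w1) * (D - w2) / n0) = ((D - w1) ^ 2 * (D - w2) / (n0 ^ 2 * n2)) *
      (B2 P B + δ * A2 P B) ∧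
    n2 * (D - w2) * ((D - w1) ^ 2 * (D - w2) / (n0 ^ 2 * n2)) =
      ((D - w1) * (D - w2) / n0) ^ 2 := by
  refine ⟨?_, ?_, ?_⟩
  · rw [hw.eval]
    field_simp
  · rw [← h3]
    field_simp
  · field_simp

/-- **Two coordinates of a point of a generic line are independent.** -/
theorem indep_line (hco : ∀ c : ℂ, A0 P c = 0 → B0 P c ≠ 0)
    {δ B D w0 w1 w2 n0 n1 n2 a τ : N} (hδ : Transcendental ℂ δ) (hB : B ∉ cl0 ({δ} : Set N))
    (hτ0 : τ ≠ 0) (hτ1 : 1 + τ ≠ 0) (hw : Rt P δ w0 w1 w2)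
    (h0 : n0 * (D - w0) * a = B0 P D + δ * A0 P D)
    (h1 : n1 * (D - w1) * a = τ * (B2 P B + δ * A2 P B))
    (h2 : n2 * (D - w2) * τ = a ^ 2) (hn : n0 + n1 + n2 = 3 * (B + δ + 1))
    {y : Fin 4 → N} (y0 : y 0 = B + D + 3 * δ) (y1 : y 1 = a + D) (y2 : y 2 = B + a / τ)
    (y3 : y 3 = τ) : ∃ i j, AlgebraicIndependent ℂ ![y i, y j] := by
  have hF := cl0_closed (Set.range y)
  have hm : ∀ i, y i ∈ cl0 (Set.range y) := fun i => subset_cl0 _ ⟨i, rfl⟩
  have m0 := hm 0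
  have m1 := hm 1
  have m2 := hm 2
  have m3 := hm 3
  rw [y0] at m0
  rw [y1] at m1
  rw [y2] at m2
  rw [y3] at m3
  have hδF : δ ∈ cl0 (Set.range y) := notMem_line hF hco hτ0 hτ1 m3 m0 m1 m2 hw h0 h1 h2 hn
  have hBF : B ∈ cl0 (Set.range y) := by
    have e : B = (B + a / τ) -
        (3 * δ - ((B + D + 3 * δ) - (a + D) - (B + a / τ))) / (1 + τ) := by
      field_simp
      ring
    rw [e]
    exact sub_mem m2 (div_mem (sub_mem (mul_mem (ofNat_mem _ 3) hδF)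
      (sub_mem (sub_mem m0 m1) m2)) (add_mem (one_mem _) m3))
  obtain ⟨s, hs⟩ := exists_indep_alg y ![δ, B] (indep_iff.2 ⟨hδ, hB⟩) (by
    intro i
    fin_cases i
    · exact mem_cl0.1 hδF
    · exact mem_cl0.1 hBF)
  refine ⟨s 0, s 1, ?_⟩
  convert hs using 1
  funext i
  fin_cases i <;> rfl

theorem f2_ne {δ B : N} (hB : B ∉ cl0 ({δ} : Set N)) : B2 P B + δ * A2 P B ≠ 0 := by
  intro h
  have hδ : δ ∈ cl0 ({δ} : Set N) := subset_cl0 _ (Set.mem_singleton δ)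
  have h1 := quart (cl0_closed ({δ} : Set N)) hB (c4 := 0) (c3 := 1) (c2 := 3 * δ)
    (c1 := -(algebraMap ℂ N (P.t 2) + algebraMap ℂ N (P.z 2) * δ))
    (c0 := -(algebraMap ℂ N (P.t 0) + algebraMap ℂ N (P.z 0) * δ))
    (neg_mem (add_mem (map_mem _) (mul_mem (map_mem _) hδ)))
    (neg_mem (add_mem (map_mem _) (mul_mem (map_mem _) hδ)))
    (mul_mem (ofNat_mem _ 3) hδ) (one_mem _) (zero_mem _) (by
      unfold B2 A2 at h
      linear_combination h)
  exact one_ne_zero h1.2.2.2.1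

/-- **The points of the surface on a generic line are generic.** -/
theorem genS_line (hirr : Irreducible (hP P)) (hco : ∀ c : ℂ, A0 P c = 0 → B0 P c ≠ 0)
    {δ B D w0 w1 w2 n0 n1 n2 : N} (hδ : Transcendental ℂ δ) (hB : B ∉ cl0 ({δ} : Set N))
    (hw : Rt P δ w0 w1 w2) (hn : n0 + n1 + n2 = 3 * (B + δ + 1))
    (hn' : w0 * n0 + w1 * n1 + w2 * n2 = -(3 * (δ + 1) * B + Mc P δ))
    (h3 : n0 * n1 * n2 = B2 P B + δ * A2 P B) (hD1 : D ≠ w1) (hD2 : D ≠ w2)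
    {y : Fin 4 → N} (y0 : y 0 = B + D + 3 * δ) (y1 : y 1 = (D - w1) * (D - w2) / n0 + D)
    (y2 : y 2 = B + n0 * n2 / (D - w1)) (y3 : y 3 = (D - w1) ^ 2 * (D - w2) / (n0 ^ 2 * n2))
    (hA : eA P (y 0) (y 1) (y 2) (y 3) = 0) (hBe : eB P (y 0) (y 1) (y 2) (y 3) = 0) :
    GenS P y := by
  haveI : CharZero N := charZero_of_injective_algebraMap (algebraMap ℂ N).injective
  have hf2 := f2_ne (P := P) hB
  rw [← h3] at hf2
  have hn0 : n0 ≠ 0 := left_ne_zero_of_mul (left_ne_zero_of_mul hf2)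
  have hn2 : n2 ≠ 0 := right_ne_zero_of_mul hf2
  have hD1' : D - w1 ≠ 0 := sub_ne_zero.2 hD1
  have hD2' : D - w2 ≠ 0 := sub_ne_zero.2 hD2
  obtain ⟨r0, r1, r2⟩ := line_rel (D := D) hw h3 hn0 hn2
  have hat : (D - w1) * (D - w2) / n0 / ((D - w1) ^ 2 * (D - w2) / (n0 ^ 2 * n2)) =
      n0 * n2 / (D - w1) := by
    field_simp
  obtain ⟨a, ha⟩ : ∃ a, a = (D - w1) * (D - w2) / n0 := ⟨_, rfl⟩
  obtain ⟨τ, hτ⟩ : ∃ τ, τ = (D - w1) ^ 2 * (D - w2) / (n0 ^ 2 * n2) := ⟨_, rfl⟩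
  have hτ0 : τ ≠ 0 := by
    rw [hτ]
    exact div_ne_zero (mul_ne_zero (pow_ne_zero 2 hD1') hD2') (mul_ne_zero (pow_ne_zero 2 hn0) hn2)
  have han : n0 * a = (D - w1) * (D - w2) := by
    rw [ha]
    field_simp
  rw [← ha, ← hτ] at r1 r2 hat
  rw [← ha] at r0 y1
  rw [← hτ] at y3
  rw [← hat] at y2
  have hτ1 : 1 + τ ≠ 0 := by
    intro h
    have hτ' : τ = -1 := by linear_combination h
    rw [hτ'] at r1 r2
    refine line_ne (a := a) hB hw hn hn' han (by linear_combination r1)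
      (by linear_combination -r2) ?_
    rw [y0, y1, y2, y3, hτ'] at hA
    have e : (3 : N) * qQ (B + D + 3 * δ) (a + D) (B - a) = 0 := by
      unfold eA at hA
      rw [show B + a / -1 = B - a by rw [div_neg, div_one]; ring] at hA
      linear_combination hA
    exact (mul_eq_zero.1 e).resolve_left (by norm_num)
  refine GenS.of_ind hirr hA hBe (by rw [y3]; exact hτ1) ?_
  exact indep_line hco hδ hB hτ0 hτ1 hw r0 r1 r2 hn y0 y1 y2 y3

end line

section coprime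

variable {P : Par}

/-- The two polynomials in `u` have no common root if the equation is irreducible. -/
theorem coprime_of_irr (hirr : Irreducible (hP P)) (c : ℂ) (hA : A0 P c = 0) : B0 P c ≠ 0 := by
  intro hB
  have hd : (MvPolynomial.X 1 - MvPolynomial.C c : MvPolynomial (Fin 3) ℂ) ∣ hP P := by
    have e0 : A0 P (MvPolynomial.X 1 : MvPolynomial (Fin 3) ℂ) =
        (MvPolynomial.X 1 - MvPolynomial.C c) * (3 * (MvPolynomial.X 1 + MvPolynomial.C c) -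
          MvPolynomial.C (P.z 3)) := by
      have h1 : A0 P (MvPolynomial.C c : MvPolynomial (Fin 3) ℂ) = 0 := by
        have h2 := map_A0 P (Algebra.ofId ℂ (MvPolynomial (Fin 3) ℂ)) c
        rw [hA, map_zero] at h2
        exact h2.symm
      rw [← sub_zero (A0 P (MvPolynomial.X 1 : MvPolynomial (Fin 3) ℂ)), ← h1]
      unfold A0
      rw [MvPolynomial.algebraMap_eq]
      ring
    have e1 : B0 P (MvPolynomial.X 1 : MvPolynomial (Fin 3) ℂ) =
        (MvPolynomial.X 1 - MvPolynomial.C c) * (MvPolynomial.X 1 ^ 2 +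
          MvPolynomial.X 1 * MvPolynomial.C c + MvPolynomial.C c ^ 2 -
          MvPolynomial.C (P.t 3)) := by
      have h1 : B0 P (MvPolynomial.C c : MvPolynomial (Fin 3) ℂ) = 0 := by
        have h2 := map_B0 P (Algebra.ofId ℂ (MvPolynomial (Fin 3) ℂ)) c
        rw [hB, map_zero] at h2
        exact h2.symm
      rw [← sub_zero (B0 P (MvPolynomial.X 1 : MvPolynomial (Fin 3) ℂ)), ← h1]
      unfold B0
      rw [MvPolynomial.algebraMap_eq]
      ring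
    unfold hP fH fU
    rw [e0, e1]
    refine ⟨(3 * ((MvPolynomial.X 1 - MvPolynomial.C c) * (MvPolynomial.X 1 ^ 2 +
          MvPolynomial.X 1 * MvPolynomial.C c + MvPolynomial.C c ^ 2 -
          MvPolynomial.C (P.t 3))) + (MvPolynomial.X 0 - MvPolynomial.X 1 - MvPolynomial.X 2) *
          ((MvPolynomial.X 1 - MvPolynomial.C c) * (3 * (MvPolynomial.X 1 + MvPolynomial.C c) -
          MvPolynomial.C (P.z 3))) - fV P (MvPolynomial.X 0) (MvPolynomial.X 1)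
          (MvPolynomial.X 2)) * ((3 * (MvPolynomial.X 1 + MvPolynomial.C c) -
          MvPolynomial.C (P.z 3)) * B2 P (MvPolynomial.X 2) - A2 P (MvPolynomial.X 2) *
          (MvPolynomial.X 1 ^ 2 +
          MvPolynomial.X 1 * MvPolynomial.C c + MvPolynomial.C c ^ 2 -
          MvPolynomial.C (P.t 3))) - (3 * (MvPolynomial.X 1 ^ 2 +
          MvPolynomial.X 1 * MvPolynomial.C c + MvPolynomial.C c ^ 2 -
          MvPolynomial.C (P.t 3)) + (MvPolynomial.X 0 - MvPolynomial.X 1 - MvPolynomial.X 2) *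
          (3 * (MvPolynomial.X 1 + MvPolynomial.C c) - MvPolynomial.C (P.z 3))) *
          fV P (MvPolynomial.X 0) (MvPolynomial.X 1) (MvPolynomial.X 2) *
          qQ (MvPolynomial.X 0) (MvPolynomial.X 1) (MvPolynomial.X 2), ?_⟩
    ring
  have hnu : ¬ IsUnit (MvPolynomial.X 1 - MvPolynomial.C c : MvPolynomial (Fin 3) ℂ) := by
    intro hu
    have h1 := hu.map (MvPolynomial.aeval (![0, c, 0] : Fin 3 → ℂ))
    rw [map_sub, MvPolynomial.aeval_X, MvPolynomial.aeval_C] at h1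
    have h2 : (![0, c, 0] : Fin 3 → ℂ) 1 = c := rfl
    rw [h2, Algebra.algebraMap_self, RingHom.id_apply, sub_self] at h1
    exact not_isUnit_zero h1
  have h2 : hP P ∣ (MvPolynomial.X 1 - MvPolynomial.C c : MvPolynomial (Fin 3) ℂ) := by
    obtain ⟨q, hq⟩ := hd
    rcases hirr.isUnit_or_isUnit hq with h | h
    · exact absurd h hnu
    · obtain ⟨r, hr⟩ := h
      refine ⟨(↑r⁻¹ : MvPolynomial (Fin 3) ℂ), ?_⟩
      rw [hq, ← hr, mul_assoc, Units.mul_inv, mul_one]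
  refine not_dvd_of_degree P _ (fun u v hu hv => ?_) h2
  rw [map_sub, MvPolynomial.aeval_X, MvPolynomial.aeval_C]
  have h3 : (![X, C u, C v] : Fin 3 → ℂ[X]) 1 = C u := rfl
  rw [h3, Polynomial.algebraMap_apply, Algebra.algebraMap_self, RingHom.id_apply, ← C_sub]
  refine ⟨?_, ?_⟩
  · rw [natDegree_C]
    norm_num
  · rw [Ne, C_eq_zero]
    intro h4
    rw [sub_eq_zero.1 h4] at hu
    exact hu hA

variable {N : Type} [Field N] [Algebra ℂ N] [IsAlgClosed N]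

/-- **The points of the surface on a generic line are generic**, for an irreducible surface. -/
theorem gen_six (hirr : Irreducible (hP P))
    {δ B D w0 w1 w2 n0 n1 n2 : N} (hδ : Transcendental ℂ δ) (hB : B ∉ cl0 ({δ} : Set N))
    (hw : Rt P δ w0 w1 w2) (hn : n0 + n1 + n2 = 3 * (B + δ + 1))
    (hn' : w0 * n0 + w1 * n1 + w2 * n2 = -(3 * (δ + 1) * B + Mc P δ))
    (h3 : n0 * n1 * n2 = B2 P B + δ * A2 P B) (hD1 : D ≠ w1) (hD2 : D ≠ w2)
    {y : Fin 4 → N} (y0 : y 0 = B + D + 3 * δ) (y1 : y 1 = (D - w1) * (D - w2) / n0 + D)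
    (y2 : y 2 = B + n0 * n2 / (D - w1)) (y3 : y 3 = (D - w1) ^ 2 * (D - w2) / (n0 ^ 2 * n2))
    (hA : eA P (y 0) (y 1) (y 2) (y 3) = 0) (hBe : eB P (y 0) (y 1) (y 2) (y 3) = 0) :
    GenS P y :=
  genS_line hirr (coprime_of_irr hirr) hδ hB hw hn hn' h3 hD1 hD2 y0 y1 y2 y3 hA hBe

end coprime

end Vale.Agent.P297.H278
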