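import Vale.Agent.P297.H278.GenLine
import Vale.Agent.P297.H721.Six

/-!
The six points of a generic line are generic points of the surface.
-/

set_option linter.unusedSectionVars false
set_option linter.style.haveILetI false
set_option linter.unusedSimpArgs false

open IntermediateField Polynomial

namespace Vale.Agent.P297.H288

open Vale.Agent.P297 Vale.Agent.P297.Gen Vale.Agent.P297.H278 Vale.Agent.P297.H777

variable {N : Type} [Field N] [Algebra ℂ N] [IsAlgClosed N] {P : Par}

theorem Lab.rt {δ B : N} {w n : Fin 3 → N} (h : Lab P δ B w n) : Rt P δ (w 0) (w 1) (w 2) :=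
  ⟨h.w1, h.w2, h.w3⟩

/-- **The roots of the polynomial of degree six are generic points of the surface.** -/
theorem Lab.genS_root (hirr : Irreducible (hP P)) {δ B : N} {w n : Fin 3 → N}
    (h : Lab P δ B w n) (hδ : Transcendental ℂ δ) (hB : B ∉ cl0 ({δ} : Set N)) {D : N}
    (hD : (P6 P δ B w n).eval D = 0) : GenS P (Lpt δ B w n D) := by
  have hco := coprime_of_irr hirr
  have hF := cl0_closed ({δ} : Set N)
  have hδF : δ ∈ cl0 ({δ} : Set N) := subset_cl0 _ (Set.mem_singleton δ)
  obtain ⟨d1, d2, -, -, hA, hBe⟩ := h.root hF hδF hB hco hD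
  have n0 := h.n_ne hF hδF hB 0
  have n2 := h.n_ne hF hδF hB 2
  refine gen_six hirr hδ hB h.rt h.n1 h.n2 h.n3 d1 d2 rfl rfl ?_ rfl hA hBe
  rw [Lpt_two, la_div_lt n0 n2 d1 d2]

end Vale.Agent.P297.H288
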